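import Vale.Agent.P205.Hopf.Profile

/-!
Hopf tori: isometric immersions of flat tori `ℝ² / ⟨a, b⟩` into the unit sphere of `ℝ⁴`, when `a`
has length `2 π N` and the torus is wide enough.
-/

namespace Vale.Agent.P205.Hopf

open Real
open scoped ContDiff

namespace Curve

variable (c : Curve)

/-- Phase of the first coordinate. -/
noncomputable def u (p : ℝ × ℝ) : ℝ := p.1 - c.θ (c.param p.2)

/-- The four coordinates of the immersion. -/
noncomputable def coord (p : ℝ × ℝ) : Fin 4 → ℝ :=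
  ![sqrt (c.z (c.param p.2)) * cos (c.u p), sqrt (c.z (c.param p.2)) * sin (c.u p),
    sqrt (1 - c.z (c.param p.2)) * cos (c.u p + c.param p.2),
    sqrt (1 - c.z (c.param p.2)) * sin (c.u p + c.param p.2)]

/-- The immersion of the plane. -/
noncomputable def hopf (p : ℝ × ℝ) : EuclideanSpace ℝ (Fin 4) := WithLp.toLp 2 (c.coord p)

theorem contDiff_hopf : ContDiff ℝ ∞ c.hopf := by
  have hp : ContDiff ℝ ∞ fun p : ℝ × ℝ => c.param p.2 := c.contDiff_param.comp contDiff_snd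
  have hz : ContDiff ℝ ∞ fun p : ℝ × ℝ => c.z (c.param p.2) := c.contDiff_z.comp hp
  have hu : ContDiff ℝ ∞ c.u := contDiff_fst.sub (c.contDiff_θ.comp hp)
  have hr : ContDiff ℝ ∞ fun p : ℝ × ℝ => sqrt (c.z (c.param p.2)) :=
    hz.sqrt fun p => (c.z_pos _).ne'
  have hq : ContDiff ℝ ∞ fun p : ℝ × ℝ => sqrt (1 - c.z (c.param p.2)) :=
    (contDiff_const.sub hz).sqrt fun p => (c.z_lt_one _).ne'
  refine contDiff_euclidean.2 fun i => ?_
  fin_cases i <;> simp [hopf, coord]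
  · exact hr.mul hu.cos
  · exact hr.mul hu.sin
  · exact hq.mul (hu.add hp).cos
  · exact hq.mul (hu.add hp).sin

theorem norm_hopf (p : ℝ × ℝ) : ‖c.hopf p‖ = 1 := by
  rw [EuclideanSpace.norm_eq, sqrt_eq_one]
  simp only [Fin.sum_univ_four, Real.norm_eq_abs, sq_abs]
  simp only [hopf, coord, Matrix.cons_val]
  linear_combination
    (sqrt (c.z (c.param p.2))) ^ 2 * sin_sq_add_cos_sq (c.u p) +
    (sqrt (1 - c.z (c.param p.2))) ^ 2 * sin_sq_add_cos_sq (c.u p + c.param p.2) +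
    sq_sqrt (c.z_pos (c.param p.2)).le + sq_sqrt (c.z_lt_one (c.param p.2)).le

theorem metric_hopf (p v : ℝ × ℝ) :
    ‖fderiv ℝ c.hopf p v‖ ^ 2 = v.1 ^ 2 + v.2 ^ 2 := by
  set φ := c.param p.2
  set dφ := (c.σ φ)⁻¹ * v.2 with hdφ
  set du := v.1 - (1 - c.z φ) * dφ with hdu
  set dr := c.dz φ * dφ / (2 * sqrt (c.z φ))
  set dq := -(c.dz φ * dφ) / (2 * sqrt (1 - c.z φ))
  have hline : ∀ t : ℝ, HasDerivAt (fun t : ℝ => p + t • v) v t := by
    intro t
    simpa using (((hasDerivAt_id t).smul_const v).const_add p)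
  have hl1 : HasDerivAt (fun t : ℝ => (p + t • v).1) v.1 0 := by
    simpa using ((hasDerivAt_id (0 : ℝ)).smul_const v.1).const_add p.1
  have hl2 : HasDerivAt (fun t : ℝ => (p + t • v).2) v.2 0 := by
    simpa using ((hasDerivAt_id (0 : ℝ)).smul_const v.2).const_add p.2
  have h2 : HasDerivAt (fun t : ℝ => c.param (p + t • v).2) dφ 0 := by
    have := (c.hasDerivAt_param (p + (0 : ℝ) • v).2).comp 0 hl2
    exact this.congr_deriv (by simp [hdφ, φ])
  have hz : HasDerivAt (fun t : ℝ => c.z (c.param (p + t • v).2)) (c.dz φ * dφ) 0 := by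
    have := (c.hasDerivAt_z (c.param (p + (0 : ℝ) • v).2)).comp 0 h2
    exact this.congr_deriv (by simp [φ])
  have hu : HasDerivAt (fun t : ℝ => c.u (p + t • v)) du 0 := by
    have := hl1.sub ((c.hasDerivAt_θ (c.param (p + (0 : ℝ) • v).2)).comp 0 h2)
    exact this.congr_deriv (by simp [hdu, φ])
  have hr : HasDerivAt (fun t : ℝ => sqrt (c.z (c.param (p + t • v).2))) dr 0 := by
    have := hz.sqrt (by simpa using (c.z_pos φ).ne')
    exact this.congr_deriv (by simp [dr, φ])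
  have hq : HasDerivAt (fun t : ℝ => sqrt (1 - c.z (c.param (p + t • v).2))) dq 0 := by
    have := (hz.const_sub 1).sqrt (by simpa using (c.z_lt_one φ).ne')
    exact this.congr_deriv (by simp [dq, φ])
  let D : Fin 4 → ℝ :=
    ![dr * cos (c.u p) - sqrt (c.z φ) * sin (c.u p) * du,
      dr * sin (c.u p) + sqrt (c.z φ) * cos (c.u p) * du,
      dq * cos (c.u p + φ) - sqrt (1 - c.z φ) * sin (c.u p + φ) * (du + dφ),
      dq * sin (c.u p + φ) + sqrt (1 - c.z φ) * cos (c.u p + φ) * (du + dφ)]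
  have hD : HasDerivAt (fun t : ℝ => c.coord (p + t • v)) D 0 := by
    rw [hasDerivAt_pi]
    intro i
    fin_cases i <;> simp only [coord, D, Fin.zero_eta, Fin.mk_one, Fin.reduceFinMk, Matrix.cons_val]
    · exact (hr.mul hu.cos).congr_deriv (by simp [φ]; ring)
    · exact (hr.mul hu.sin).congr_deriv (by simp [φ]; ring)
    · exact (hq.mul (hu.add h2).cos).congr_deriv (by simp [φ]; ring)
    · exact (hq.mul (hu.add h2).sin).congr_deriv (by simp [φ]; ring)
  have hH : HasDerivAt (fun t : ℝ => c.hopf (p + t • v)) (WithLp.toLp 2 D) 0 :=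
    ((EuclideanSpace.equiv (Fin 4) ℝ).symm.toContinuousLinearMap.hasFDerivAt.comp_hasDerivAt 0 hD)
  have hH' : HasDerivAt (fun t : ℝ => c.hopf (p + t • v)) (fderiv ℝ c.hopf p v) 0 := by
    have := ((c.contDiff_hopf.differentiable (by simp)) (p + (0 : ℝ) • v)).hasFDerivAt.comp_hasDerivAt
      0 (hline 0)
    simpa [Function.comp_def] using this
  rw [hH'.unique hH, EuclideanSpace.norm_sq_eq]
  simp only [Fin.sum_univ_four, Real.norm_eq_abs, sq_abs]
  simp only [D, Matrix.cons_val]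
  have hz0 := c.z_pos φ
  have hz1 := c.z_lt_one φ
  have hr2 := sq_sqrt hz0.le
  have hq2 := sq_sqrt hz1.le
  have hσ : c.σ φ ^ 2 * dφ ^ 2 = v.2 ^ 2 := by
    rw [hdφ]; field_simp [(c.σ_pos φ).ne']
  have hdr : dr ^ 2 = (c.dz φ * dφ) ^ 2 / (4 * c.z φ) := by
    simp only [dr, div_pow, mul_pow, hr2]; ring
  have hdq : dq ^ 2 = (c.dz φ * dφ) ^ 2 / (4 * (1 - c.z φ)) := by
    simp only [dq, div_pow, mul_pow, neg_sq, hq2]; ring
  have hsum : dr ^ 2 + dq ^ 2 + c.z φ * (1 - c.z φ) * dφ ^ 2 = v.2 ^ 2 := by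
    rw [← hσ, c.sigma_sq, hdr, hdq]
    field_simp
    ring
  linear_combination (dr ^ 2 + sqrt (c.z φ) ^ 2 * du ^ 2) * sin_sq_add_cos_sq (c.u p) +
    (dq ^ 2 + sqrt (1 - c.z φ) ^ 2 * (du + dφ) ^ 2) * sin_sq_add_cos_sq (c.u p + φ) +
    du ^ 2 * hr2 + (du + dφ) ^ 2 * hq2 + hsum +
    (du + v.1 + (1 - c.z φ) * dφ) * hdu

end Curve

/-- The normalised case: fibre period `(2π, 0)`, second period `(δ, L)`. -/
theorem exists_standard (δ L : ℝ) (hL : 4 * π ≤ L) :
    ∃ H : ℝ × ℝ → EuclideanSpace ℝ (Fin 4), ContDiff ℝ ∞ H ∧ (∀ p, ‖H p‖ = 1) ∧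
      (∀ p v, ‖fderiv ℝ H p v‖ ^ 2 = v.1 ^ 2 + v.2 ^ 2) ∧
      (∀ p, H (p + (2 * π, 0)) = H p) ∧ (∀ p, H (p + (δ, L)) = H p) := by
  have hπ := pi_pos
  set K := ⌊L / π⌋₊ with hK
  have hK4 : 4 ≤ K := Nat.le_floor (by rw [le_div_iff₀ hπ]; simpa using hL)
  have hK1 : (K : ℝ) * π ≤ L := by
    have := Nat.floor_le (div_nonneg (le_trans (by positivity) hL) hπ.le)
    rwa [← hK, le_div_iff₀ hπ] at this
  have hK2 : L ≤ (K + 1 : ℝ) * π := by
    have := (Nat.lt_floor_add_one (L / π)).le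
    rwa [← hK, div_le_iff₀ hπ] at this
  have hKpos : (4 : ℝ) ≤ K := by exact_mod_cast hK4
  set n : ℤ := ⌈(K : ℝ) / 2 - δ / (2 * π)⌉ with hn
  have hn1 := Int.le_ceil ((K : ℝ) / 2 - δ / (2 * π))
  have hn2 := (Int.ceil_lt_add_one ((K : ℝ) / 2 - δ / (2 * π))).le
  rw [← hn] at hn1 hn2
  set a := 1 - (δ / (2 * π) + n) / K with ha
  have haI : a ∈ Set.Icc (1 / 4 : ℝ) (1 / 2) := by
    constructor
    · rw [ha, le_sub_comm, div_le_iff₀ (by positivity)]; linarith
    · rw [ha, sub_le_comm, le_div_iff₀ (by positivity)]; linarith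
  have hℓ : L / K ∈ Set.Icc π (2 * π) := by
    constructor
    · rw [le_div_iff₀ (by positivity)]; linarith
    · rw [div_le_iff₀ (by positivity)]; nlinarith
  obtain ⟨c, hca, hcs⟩ := exists_length haI hℓ
  refine ⟨c.hopf, c.contDiff_hopf, c.norm_hopf, c.metric_hopf, fun p => ?_, fun p => ?_⟩
  · obtain ⟨x, y⟩ := p
    have e : c.u (x + 2 * π, y + 0) = c.u (x, y) + 2 * π := by
      simp [Curve.u]; ring
    have e' : c.u (x, y) + 2 * π + c.param y = c.u (x, y) + c.param y + 2 * π := by ring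
    simp only [Curve.hopf, Curve.coord, Prod.mk_add_mk, add_zero] at *
    simp only [e, e', cos_add_two_pi, sin_add_two_pi]
  · obtain ⟨x, y⟩ := p
    have hp : c.param (y + L) = c.param y + K * (2 * π) := by
      have := c.param_add_nat y K
      rwa [hcs, mul_div_cancel₀ _ (by positivity : (K : ℝ) ≠ 0)] at this
    have hz : c.z (c.param y + K * (2 * π)) = c.z (c.param y) := by
      have e : 16 * (c.param y + K * (2 * π)) = 16 * c.param y + ((16 * K : ℕ) : ℝ) * (2 * π) := by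
        push_cast; ring
      simp only [Curve.z, e, sin_add_nat_mul_two_pi]
    have hθ : c.θ (c.param y + K * (2 * π)) = c.θ (c.param y) + δ + n * (2 * π) := by
      have e : 16 * (c.param y + K * (2 * π)) = 16 * c.param y + ((16 * K : ℕ) : ℝ) * (2 * π) := by
        push_cast; ring
      simp only [Curve.θ, e, cos_add_nat_mul_two_pi, hca, ha]
      field_simp
      ring
    have e : c.u (x + δ, y + L) = c.u (x, y) - n * (2 * π) := by
      simp only [Curve.u, hp, hθ]; ring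
    have e' : c.u (x, y) - n * (2 * π) + (c.param y + K * (2 * π)) =
        c.u (x, y) + c.param y - ((n - K : ℤ) : ℝ) * (2 * π) := by push_cast; ring
    simp only [Curve.hopf, Curve.coord, Prod.mk_add_mk, e, hp, hz, e', cos_sub_int_mul_two_pi,
      sin_sub_int_mul_two_pi]

end Vale.Agent.P205.Hopf
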