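import Vale.Agent.P205.Defs
import Vale.Agent.P205.Hopf.Torus

/-!
Flat tori in the unit three-sphere with prescribed periods.
-/

namespace Vale.Agent.P205

open Real
open scoped ContDiff

/-- Flat tori in the unit three-sphere. -/
theorem exists_flat_torus (a b : R2) (N : ℕ) (hN : 0 < N) (ha : sq2 a = (2 * Real.pi * N) ^ 2)
    (hb : 4 * Real.pi * (2 * Real.pi * N) ≤ |det2 a b|) :
    ∃ H : R2 → EuclideanSpace ℝ (Fin 4), ContDiff ℝ ∞ H ∧ (∀ p, ‖H p‖ = 1) ∧
      (∀ p v, ‖fderiv ℝ H p v‖ ^ 2 = sq2 v) ∧ (∀ p, H (p + a) = H p) ∧ ∀ p, H (p + b) = H p := by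
  simp only [sq2, det2] at ha hb ⊢
  have hπ := pi_pos
  have hNR : (0 : ℝ) < N := by exact_mod_cast hN
  set ρ := 2 * π * N with hρ
  have hρ0 : 0 < ρ := by positivity
  obtain ⟨ε, hε, hεd⟩ : ∃ ε : ℝ, ε ^ 2 = 1 ∧
      ε * (a.1 * b.2 - a.2 * b.1) = |a.1 * b.2 - a.2 * b.1| := by
    rcases le_total 0 (a.1 * b.2 - a.2 * b.1) with h | h
    · exact ⟨1, one_pow 2, by rw [one_mul, abs_of_nonneg h]⟩
    · exact ⟨-1, by norm_num, by rw [abs_of_nonpos h]; ring⟩
  let R : ℝ × ℝ →L[ℝ] ℝ × ℝ :=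
    (((a.1 / ρ) • ContinuousLinearMap.fst ℝ ℝ ℝ + (a.2 / ρ) • ContinuousLinearMap.snd ℝ ℝ ℝ)).prod
      ((ε * a.1 / ρ) • ContinuousLinearMap.snd ℝ ℝ ℝ - (ε * a.2 / ρ) • ContinuousLinearMap.fst ℝ ℝ ℝ)
  have hR : ∀ p, R p = ((a.1 * p.1 + a.2 * p.2) / ρ, ε * (a.1 * p.2 - a.2 * p.1) / ρ) := by
    intro p
    simp only [R, ContinuousLinearMap.prod_apply, add_apply,
      sub_apply, smul_apply,
      ContinuousLinearMap.coe_fst', ContinuousLinearMap.coe_snd', smul_eq_mul, Prod.mk.injEq]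
    constructor <;> ring
  have hRiso : ∀ v, (R v).1 ^ 2 + (R v).2 ^ 2 = v.1 ^ 2 + v.2 ^ 2 := by
    intro v
    rw [hR]
    field_simp
    linear_combination (a.1 * v.2 - a.2 * v.1) ^ 2 * hε + (v.1 ^ 2 + v.2 ^ 2) * ha
  obtain ⟨H, hH, hn, hm, h1, h2⟩ := Hopf.exists_standard ((R b).1) ((R b).2) (by
    rw [hR, le_div_iff₀ hρ0, hεd]; exact hb)
  refine ⟨H ∘ R, hH.comp R.contDiff, fun p => hn _, fun p v => ?_, fun p => ?_, fun p => ?_⟩
  · rw [fderiv_comp p ((hH.differentiable (by simp)) _) R.differentiableAt, R.fderiv,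
      ContinuousLinearMap.comp_apply, hm, hRiso]
  · have : R a = ((N : ℝ) • ((2 * π, 0) : ℝ × ℝ)) := by
      rw [hR, Prod.smul_mk, smul_eq_mul, smul_eq_mul]
      refine Prod.ext ?_ ?_
      · dsimp only
        rw [div_eq_iff hρ0.ne']
        linear_combination ha
      · dsimp only
        ring
    simp only [Function.comp_apply, map_add, this]
    generalize R p = q
    clear this ha hρ hρ0 hb hN hNR
    have key : ∀ k : ℕ, H (q + (k : ℝ) • ((2 * π, 0) : ℝ × ℝ)) = H q := by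
      intro k
      induction k with
      | zero => simp
      | succ k ih => rw [Nat.cast_succ, add_smul, one_smul, ← add_assoc, h1, ih]
    exact key N
  · simp only [Function.comp_apply, map_add]
    exact h2 _

end Vale.Agent.P205
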