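import Mathlib

/-!
Profile curves for Hopf tori: `z = a + b * sin (16 φ)`, its horizontal lift phase `θ`, the speed
`σ`, the arclength `s` and the inverse `param` of the arclength.
-/

namespace Vale.Agent.P205.Hopf

open Real MeasureTheory
open scoped ContDiff

/-- Parameters of a profile curve. -/
structure Curve where
  a : ℝ
  b : ℝ
  ha : a ∈ Set.Icc (1 / 4 : ℝ) (1 / 2)
  hb : b ∈ Set.Icc (0 : ℝ) (1 / 8)

namespace Curve

variable (c : Curve)

/-- Squared modulus of the first complex coordinate. -/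
noncomputable def z (φ : ℝ) : ℝ := c.a + c.b * sin (16 * φ)

/-- Derivative of `z`. -/
noncomputable def dz (φ : ℝ) : ℝ := c.b * (16 * cos (16 * φ))

/-- Phase of the horizontal lift. -/
noncomputable def θ (φ : ℝ) : ℝ := (1 - c.a) * φ + c.b / 16 * cos (16 * φ)

/-- Speed of the projected curve. -/
noncomputable def σ (φ : ℝ) : ℝ :=
  sqrt (c.dz φ ^ 2 / (4 * c.z φ * (1 - c.z φ)) + c.z φ * (1 - c.z φ))

/-- Arclength. -/
noncomputable def s (φ : ℝ) : ℝ := ∫ x in (0 : ℝ)..φ, c.σ x

theorem z_mem (φ : ℝ) : c.z φ ∈ Set.Icc (1 / 8 : ℝ) (5 / 8) := by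
  obtain ⟨h1, h2⟩ := c.ha
  obtain ⟨h3, h4⟩ := c.hb
  have h5 := neg_one_le_sin (16 * φ)
  have h6 := sin_le_one (16 * φ)
  constructor <;> unfold z <;> nlinarith

theorem z_pos (φ : ℝ) : 0 < c.z φ := by linarith [(c.z_mem φ).1]

theorem z_lt_one (φ : ℝ) : 0 < 1 - c.z φ := by linarith [(c.z_mem φ).2]

theorem radicand_ge (φ : ℝ) :
    3 / 64 ≤ c.dz φ ^ 2 / (4 * c.z φ * (1 - c.z φ)) + c.z φ * (1 - c.z φ) := by
  obtain ⟨h1, h2⟩ := c.z_mem φ
  have h3 : 3 / 64 ≤ c.z φ * (1 - c.z φ) := by nlinarith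
  have h4 : 0 ≤ c.dz φ ^ 2 / (4 * c.z φ * (1 - c.z φ)) := by
    have := c.z_pos φ
    have := c.z_lt_one φ
    positivity
  linarith

theorem σ_pos (φ : ℝ) : 0 < c.σ φ := sqrt_pos.2 (by linarith [c.radicand_ge φ])

theorem sigma_sq (φ : ℝ) :
    c.σ φ ^ 2 = c.dz φ ^ 2 / (4 * c.z φ * (1 - c.z φ)) + c.z φ * (1 - c.z φ) :=
  sq_sqrt (by linarith [c.radicand_ge φ])

theorem σ_ge (φ : ℝ) : 3 / 64 ≤ c.σ φ := by
  refine le_sqrt_of_sq_le ?_
  linarith [c.radicand_ge φ]

theorem contDiff_z : ContDiff ℝ ∞ c.z := by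
  unfold z; fun_prop

theorem contDiff_θ : ContDiff ℝ ∞ c.θ := by
  unfold θ; fun_prop

theorem contDiff_σ : ContDiff ℝ ∞ c.σ := by
  refine ContDiff.sqrt ?_ fun φ => ne_of_gt (by linarith [c.radicand_ge φ])
  refine ContDiff.add (ContDiff.div ?_ ?_ fun φ => ?_) ?_
  · unfold dz; fun_prop
  · unfold z; fun_prop
  · exact mul_ne_zero (mul_ne_zero (by norm_num) (c.z_pos φ).ne') (c.z_lt_one φ).ne'
  · unfold z; fun_prop

theorem continuous_σ : Continuous c.σ := c.contDiff_σ.continuous

theorem hasDerivAt_z (φ : ℝ) : HasDerivAt c.z (c.dz φ) φ := by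
  have := ((((hasDerivAt_id φ).const_mul 16).sin).const_mul c.b).const_add c.a
  simp only [id_eq, mul_one] at this
  exact this.congr_deriv (by unfold dz; ring)

theorem hasDerivAt_θ (φ : ℝ) : HasDerivAt c.θ (1 - c.z φ) φ := by
  have := ((hasDerivAt_id φ).const_mul (1 - c.a)).add
    ((((hasDerivAt_id φ).const_mul 16).cos).const_mul (c.b / 16))
  simp only [id_eq, mul_one] at this
  exact this.congr_deriv (by unfold z; ring)

theorem hasDerivAt_s (φ : ℝ) : HasDerivAt c.s (c.σ φ) φ :=
  (c.continuous_σ.integral_hasStrictDerivAt 0 φ).hasDerivAt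

theorem strictMono_s : StrictMono c.s :=
  strictMono_of_deriv_pos fun φ => by rw [(c.hasDerivAt_s φ).deriv]; exact c.σ_pos φ

theorem surjective_s : Function.Surjective c.s := by
  have hc : Continuous c.s := continuous_iff_continuousAt.2 fun φ => (c.hasDerivAt_s φ).continuousAt
  have h : Monotone fun φ => c.s φ - 3 / 64 * φ := by
    refine monotone_of_hasDerivAt_nonneg
      (fun φ => (c.hasDerivAt_s φ).sub ((hasDerivAt_id φ).const_mul (3 / 64))) fun φ => ?_
    simp only [Pi.zero_apply, mul_one, sub_nonneg]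
    exact c.σ_ge φ
  have h0 : c.s 0 = 0 := by simp [s]
  refine hc.surjective ?_ ?_
  · refine Filter.tendsto_atTop_mono' _ (f₁ := fun φ : ℝ => 3 / 64 * φ) ?_
      (Filter.tendsto_id.const_mul_atTop (r := (3 / 64 : ℝ)) (by norm_num))
    filter_upwards [Filter.eventually_ge_atTop 0] with φ hφ
    have := h hφ
    simp only [h0, mul_zero, sub_zero] at this
    linarith
  · refine Filter.tendsto_atBot_mono' _ (f₁ := fun φ : ℝ => 3 / 64 * φ) ?_
      (Filter.tendsto_id.const_mul_atBot (r := (3 / 64 : ℝ)) (by norm_num))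
    filter_upwards [Filter.eventually_le_atBot 0] with φ hφ
    have := h hφ
    simp only [h0, mul_zero, sub_zero] at this
    linarith

/-- The inverse of the arclength. -/
noncomputable def param : ℝ → ℝ := (c.strictMono_s.orderIsoOfSurjective _ c.surjective_s).symm

theorem s_param (y : ℝ) : c.s (c.param y) = y :=
  (c.strictMono_s.orderIsoOfSurjective _ c.surjective_s).apply_symm_apply y

theorem continuous_param : Continuous c.param :=
  (c.strictMono_s.orderIsoOfSurjective _ c.surjective_s).symm.continuous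

theorem hasDerivAt_param (y : ℝ) : HasDerivAt c.param (c.σ (c.param y))⁻¹ y :=
  (c.hasDerivAt_s (c.param y)).of_local_left_inverse c.continuous_param.continuousAt
    (c.σ_pos _).ne' (Filter.Eventually.of_forall c.s_param)

theorem contDiff_param : ContDiff ℝ ∞ c.param := by
  refine contDiff_infty.2 fun n => ?_
  induction n with
  | zero => simpa using c.continuous_param
  | succ n ih =>
    rw [show ((n + 1 : ℕ) : WithTop ℕ∞) = (n : WithTop ℕ∞) + 1 by norm_cast,
      contDiff_succ_iff_deriv]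
    refine ⟨fun y => (c.hasDerivAt_param y).differentiableAt, by simp, ?_⟩
    rw [show deriv c.param = fun y => (c.σ (c.param y))⁻¹ from
      funext fun y => (c.hasDerivAt_param y).deriv]
    exact ((c.contDiff_σ.of_le (by exact_mod_cast le_top)).comp ih).inv fun y => (c.σ_pos _).ne'

theorem σ_periodic : Function.Periodic c.σ (2 * π) := by
  intro φ
  have e : 16 * (φ + 2 * π) = 16 * φ + ((16 : ℕ) : ℝ) * (2 * π) := by push_cast; ring
  simp only [σ, z, dz, e, sin_add_nat_mul_two_pi, cos_add_nat_mul_two_pi]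

theorem s_add_nat (φ : ℝ) (k : ℕ) : c.s (φ + k * (2 * π)) = c.s φ + k * c.s (2 * π) := by
  induction k with
  | zero => simp
  | succ k ih =>
    have e : φ + ((k + 1 : ℕ) : ℝ) * (2 * π) = φ + k * (2 * π) + 2 * π := by push_cast; ring
    have h : c.s (φ + k * (2 * π) + 2 * π) = c.s (φ + k * (2 * π)) + c.s (2 * π) := by
      have h2 := c.σ_periodic.intervalIntegral_add_eq (φ + k * (2 * π)) 0
      rw [zero_add] at h2
      simp only [s]
      rw [← h2, intervalIntegral.integral_add_adjacent_intervals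
        (c.continuous_σ.intervalIntegrable _ _) (c.continuous_σ.intervalIntegrable _ _)]
    rw [e, h, ih]
    push_cast
    ring

theorem param_add_nat (y : ℝ) (k : ℕ) :
    c.param (y + k * c.s (2 * π)) = c.param y + k * (2 * π) := by
  apply c.strictMono_s.injective
  rw [c.s_param, c.s_add_nat, c.s_param]

end Curve

/-- Every length in `[π, 2π]` is the length of one period of some profile curve with given `a`. -/
theorem exists_length {a ℓ : ℝ} (ha : a ∈ Set.Icc (1 / 4 : ℝ) (1 / 2))
    (hℓ : ℓ ∈ Set.Icc π (2 * π)) : ∃ c : Curve, c.a = a ∧ c.s (2 * π) = ℓ := by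
  let mk : ℝ → Curve := fun b => ⟨a, max 0 (min b (1 / 8)), ha,
    le_max_left _ _, max_le (by norm_num) (min_le_right _ _)⟩
  have hcont : Continuous fun b => (mk b).s (2 * π) := by
    unfold Curve.s
    apply intervalIntegral.continuous_parametric_intervalIntegral_of_continuous'
    refine Continuous.sqrt ?_
    refine Continuous.add (Continuous.div₀ ?_ ?_ fun p => ?_) ?_
    · simp only [Curve.dz, mk]; fun_prop
    · simp only [Curve.z, mk]; fun_prop
    · exact mul_ne_zero (mul_ne_zero (by norm_num) ((mk p.1).z_pos p.2).ne')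
        ((mk p.1).z_lt_one p.2).ne'
    · simp only [Curve.z, mk]; fun_prop
  have h0 : (mk 0).s (2 * π) ≤ π := by
    have : ∀ φ, (mk 0).σ φ ≤ 1 / 2 := by
      intro φ
      rw [Curve.σ, sqrt_le_iff]
      simp only [Curve.dz, Curve.z, mk]
      norm_num
      nlinarith [sq_nonneg (2 * a - 1)]
    calc (mk 0).s (2 * π) ≤ ∫ _ in (0 : ℝ)..(2 * π), (1 / 2 : ℝ) :=
          intervalIntegral.integral_mono_on (by positivity)
            ((mk 0).continuous_σ.intervalIntegrable _ _) intervalIntegrable_const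
            fun φ _ => this φ
      _ = π := by rw [intervalIntegral.integral_const, smul_eq_mul]; ring
  have h1 : 2 * π ≤ (mk (1 / 8)).s (2 * π) := by
    have : ∀ φ, 2 * cos (16 * φ) ^ 2 ≤ (mk (1 / 8)).σ φ := by
      intro φ
      have hb : (mk (1 / 8)).b = 1 / 8 := by norm_num [mk]
      apply le_sqrt_of_sq_le
      have hz := (mk (1 / 8)).z_pos φ
      have hz' := (mk (1 / 8)).z_lt_one φ
      have h4 : 4 * (mk (1 / 8)).z φ * (1 - (mk (1 / 8)).z φ) ≤ 1 := by
        nlinarith [sq_nonneg (2 * (mk (1 / 8)).z φ - 1)]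
      have hd : (mk (1 / 8)).dz φ ^ 2 ≤
          (mk (1 / 8)).dz φ ^ 2 / (4 * (mk (1 / 8)).z φ * (1 - (mk (1 / 8)).z φ)) := by
        rw [le_div_iff₀ (by positivity)]
        exact mul_le_of_le_one_right (sq_nonneg _) h4
      have hc : cos (16 * φ) ^ 2 ≤ 1 := cos_sq_le_one _
      have he : (mk (1 / 8)).dz φ ^ 2 = 4 * cos (16 * φ) ^ 2 := by
        rw [Curve.dz, hb]; ring
      nlinarith [sq_nonneg (cos (16 * φ)), mul_pos hz hz']
    calc 2 * π = ∫ φ in (0 : ℝ)..(2 * π), 2 * cos (16 * φ) ^ 2 := by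
          rw [intervalIntegral.integral_const_mul,
            intervalIntegral.integral_comp_mul_left (fun x => cos x ^ 2) (by norm_num),
            integral_cos_sq,
            show 16 * (2 * π) = ((32 : ℕ) : ℝ) * π by push_cast; ring, sin_nat_mul_pi]
          simp only [mul_zero, sin_zero, sub_zero, smul_eq_mul]
          push_cast
          ring
      _ ≤ _ := intervalIntegral.integral_mono_on (by positivity)
          ((Continuous.intervalIntegrable (by fun_prop)) _ _)
          ((mk (1 / 8)).continuous_σ.intervalIntegrable _ _) fun φ _ => this φ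
  obtain ⟨b, -, hb⟩ := intermediate_value_Icc (by norm_num : (0 : ℝ) ≤ 1 / 8) hcont.continuousOn
    ⟨h0.trans hℓ.1, hℓ.2.trans h1⟩
  exact ⟨mk b, rfl, hb⟩

end Vale.Agent.P205.Hopf
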